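import Vale.Agent.P181.TL.DefsE

set_option autoImplicit false

/-!
# P181, TL: block T9E: the polylogarithmic window from `CoreE`

Inputs: the polylog theorem (`PLH`) and few boxes below row two (`FewH`).
-/

namespace Vale.Agent.P181.TL.H410

open Filter
open Vale.Agent.P181.TL
open Vale.Agent.P181.H280 (plethMult)

/-- The polylog theorem (`PLX.poly_result`). -/
def PLH : Prop := ∃ (C : ℝ) (c : ℕ), ∀ a b : ℕ, C * a * (1 + Real.log a) ^ c ≤ b →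
  ∀ (n : ℕ) (lam : Fin n → ℕ), plethMult a b n lam ≤ plethMult b a n lam

/-- Few boxes below row two. -/
def FewH : Prop := ∀ (a b k : ℕ) (lam : Fin (k + 2) → ℕ), 2 ≤ a → dn2 lam + a ≤ b + 1 →
  plethMult a b (k + 2) lam ≤ plethMult b a (k + 2) lam

/-- The common driver: `Q` bounds `q`, `R` bounds `2 a ^ 2 / (λ_2 - 9 t)`. -/
theorem driveE (hE : CoreE) {a b k : ℕ} {lam : Fin (k + 2) → ℕ}
    (hsum : ∑ i, lam i = a * b) (ha : 0 < a) (hbt : b ≤ dn2 lam + a)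
    (h60 : lam 1 + 60 * dn2 lam + 17 * a ^ 2 ≤ lam 0) {Q R : ℝ} (hR : 2 ≤ R)
    (h1 : 5 + 16 * (dn2 lam : ℝ) / (a : ℝ) ^ 2 ≤ Q)
    (h2 : 2 * (a : ℝ) ^ 2 ≤ R * ((lam 1 : ℝ) - 9 * dn2 lam)) (h3 : 12 * Q ^ 2 * R ≤ a)
    (h5 : 10 ^ 6 * ((8 * Q + Q ^ 2 * R + 1) * Q ^ 2) ^ 2 * a ≤ dn2 lam) :
    plethMult a b (k + 2) lam ≤ plethMult b a (k + 2) lam := by
  obtain ⟨q, hq⟩ : ∃ q, q = 5 + 16 * dn2 lam / a ^ 2 := ⟨_, rfl⟩
  have hqQ : (q : ℝ) ≤ Q := by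
    refine le_trans ?_ h1
    rw [hq, Nat.cast_add]
    have := @Nat.cast_div_le ℝ _ _ _ (16 * dn2 lam) (a ^ 2)
    push_cast at this ⊢
    linarith
  have hq5 : 5 ≤ q := by rw [hq]; exact Nat.le_add_right _ _
  have hqa : q * a ^ 2 ≤ 5 * a ^ 2 + 16 * dn2 lam := by
    rw [hq, add_mul]
    have := Nat.div_mul_le_self (16 * dn2 lam) (a ^ 2)
    omega
  have hq0 : (5 : ℝ) ≤ q := by exact_mod_cast hq5
  have hQ5 : (5 : ℝ) ≤ Q := hq0.trans hqQ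
  have hq2 : (q : ℝ) ^ 2 ≤ Q ^ 2 := pow_le_pow_left₀ (by linarith) hqQ 2
  have hQR : 0 ≤ Q ^ 2 * R := by positivity
  obtain ⟨m, hm⟩ : ∃ m, m = 8 * q + ⌈Q ^ 2 * R⌉₊ := ⟨_, rfl⟩
  have hm1 : Q ^ 2 * R ≤ m := by
    rw [hm]
    push_cast
    have := Nat.le_ceil (Q ^ 2 * R)
    linarith
  have hm2 : (m : ℝ) ≤ 8 * Q + Q ^ 2 * R + 1 := by
    rw [hm]
    push_cast
    have := (Nat.ceil_lt_add_one hQR).le
    linarith
  have hm0 : 0 < m := by omega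
  have hmR : (0 : ℝ) < m := by exact_mod_cast hm0
  have ha0 : (0 : ℝ) < a := by exact_mod_cast ha
  have hR0 : 0 < R := by linarith
  -- `24 Q² ≤ a`
  have h24 : 24 * Q ^ 2 ≤ a := by
    refine le_trans ?_ h3
    nlinarith [sq_nonneg Q]
  have h120 : 120 * Q ≤ a := by
    refine le_trans ?_ h24
    nlinarith
  -- `x = q² a (a / m)` satisfies `R x ≤ a²`
  obtain ⟨x, hx⟩ : ∃ x, x = q ^ 2 * a * (a / m) := ⟨_, rfl⟩
  have hxR : R * (x : ℝ) ≤ (a : ℝ) ^ 2 := by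
    have hdiv : ((a / m : ℕ) : ℝ) ≤ (a : ℝ) / m := Nat.cast_div_le
    have h6 : (x : ℝ) ≤ (q : ℝ) ^ 2 * a * (a / m) := by
      rw [hx]
      push_cast
      gcongr
    have h7 : R * (x : ℝ) * m ≤ (a : ℝ) ^ 2 * m := by
      calc R * (x : ℝ) * m ≤ R * ((q : ℝ) ^ 2 * a * (a / m)) * m := by gcongr
        _ = R * (q : ℝ) ^ 2 * (a : ℝ) ^ 2 := by field_simp
        _ ≤ R * Q ^ 2 * (a : ℝ) ^ 2 := by gcongr
        _ = (Q ^ 2 * R) * (a : ℝ) ^ 2 := by ring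
        _ ≤ m * (a : ℝ) ^ 2 := by gcongr
        _ = (a : ℝ) ^ 2 * m := by ring
    exact le_of_mul_le_mul_right h7 hmR
  have hx0 : (0 : ℝ) ≤ x := Nat.cast_nonneg x
  have hxa : 2 * (x : ℝ) ≤ (a : ℝ) ^ 2 := by
    refine le_trans ?_ hxR
    gcongr
  have h6q : 12 * (q : ℝ) ^ 2 * R ≤ a := by
    refine le_trans ?_ h3
    gcongr
  have h24q : 24 * (q : ℝ) ^ 2 ≤ a := by
    refine le_trans ?_ h24
    gcongr
  refine hE a b k q m lam hsum ?_ hq (by omega) ?_ ?_ ?_ hbt ?_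
  · have : (3 : ℝ) ≤ a := by linarith
    exact_mod_cast this
  · have : ((40 * q : ℕ) : ℝ) ≤ (a : ℝ) := by
      push_cast
      linarith
    exact_mod_cast this
  · rw [← hx]
    have : ((9 * dn2 lam + 6 * q ^ 2 * a + x : ℕ) : ℝ) ≤ ((lam 1 : ℕ) : ℝ) := by
      push_cast
      have h8 : R * (6 * (q : ℝ) ^ 2 * a + x) ≤ R * ((lam 1 : ℝ) - 9 * dn2 lam) := by
        refine le_trans ?_ h2
        have h9 : R * (6 * (q : ℝ) ^ 2 * a) ≤ (a : ℝ) ^ 2 := by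
          calc R * (6 * (q : ℝ) ^ 2 * a) ≤ (12 * (q : ℝ) ^ 2 * R) * (a : ℝ) := by
                have := mul_nonneg (mul_nonneg hR0.le (sq_nonneg (q : ℝ))) ha0.le
                linarith
            _ ≤ (a : ℝ) * a := by gcongr
            _ = (a : ℝ) ^ 2 := by ring
        linarith
      have h10 := le_of_mul_le_mul_left h8 hR0
      linarith
    exact_mod_cast this
  · rw [← hx]
    have h11 : 6 * q ^ 2 * a + x + 5 * a ≤ 2 * a ^ 2 := by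
      have : ((6 * q ^ 2 * a + x + 5 * a : ℕ) : ℝ) ≤ ((2 * a ^ 2 : ℕ) : ℝ) := by
        push_cast
        have h12 : 24 * (q : ℝ) ^ 2 * a ≤ (a : ℝ) ^ 2 := by
          calc 24 * (q : ℝ) ^ 2 * a ≤ (a : ℝ) * a := by gcongr
            _ = (a : ℝ) ^ 2 := by ring
        have h13 : 5 * (a : ℝ) ≤ (q : ℝ) ^ 2 * a := by
          have : (5 : ℝ) ≤ (q : ℝ) ^ 2 := by nlinarith
          gcongr
        linarith
      exact_mod_cast this
    have h14 : 3 * q * a ^ 2 = 3 * (q * a ^ 2) := by ring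
    rw [h14]
    omega
  · have : ((10 ^ 6 * (m * q ^ 2) ^ 2 * a : ℕ) : ℝ) ≤ ((dn2 lam : ℕ) : ℝ) := by
      push_cast
      refine le_trans ?_ h5
      have : (m : ℝ) * (q : ℝ) ^ 2 ≤ (8 * Q + Q ^ 2 * R + 1) * Q ^ 2 :=
        mul_le_mul hm2 hq2 (by positivity) (by positivity)
      gcongr
      norm_num
    exact_mod_cast this

/-- A power of `1 + log a` is small. -/
theorem ev_log (M : ℝ) (p : ℕ) : ∃ a₀ : ℕ, ∀ a : ℕ, a₀ ≤ a → M * (1 + Real.log a) ^ p ≤ a := by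
  have h1 : ∀ᶠ x : ℝ in atTop, ‖Real.log x ^ p‖ ≤ 1 / ((|M| + 1) * 2 ^ p) * ‖id x‖ :=
    (Real.isLittleO_pow_log_id_atTop (n := p)).bound (by positivity)
  have h2 : ∀ᶠ x : ℝ in atTop, 1 ≤ Real.log x := Real.tendsto_log_atTop.eventually_ge_atTop 1
  have h3 : ∀ᶠ x : ℝ in atTop, M * (1 + Real.log x) ^ p ≤ x := by
    filter_upwards [h1, h2, eventually_ge_atTop (0 : ℝ)] with x hx1 hx2 hx0
    rw [Real.norm_of_nonneg (by positivity), id, Real.norm_of_nonneg hx0] at hx1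
    have h5 : (1 + Real.log x) ^ p ≤ (2 * Real.log x) ^ p :=
      pow_le_pow_left₀ (by linarith) (by linarith) _
    have h6 : (0 : ℝ) < (|M| + 1) * 2 ^ p := by positivity
    calc M * (1 + Real.log x) ^ p ≤ (|M| + 1) * (1 + Real.log x) ^ p :=
          mul_le_mul_of_nonneg_right (by linarith [le_abs_self M]) (by positivity)
      _ ≤ (|M| + 1) * (2 * Real.log x) ^ p := mul_le_mul_of_nonneg_left h5 (by positivity)
      _ = ((|M| + 1) * 2 ^ p) * Real.log x ^ p := by rw [mul_pow]; ring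
      _ ≤ ((|M| + 1) * 2 ^ p) * (1 / ((|M| + 1) * 2 ^ p) * x) :=
          mul_le_mul_of_nonneg_left hx1 h6.le
      _ = x := by rw [← mul_assoc, mul_one_div_cancel h6.ne', one_mul]
  have h4 := tendsto_natCast_atTop_atTop.eventually h3
  obtain ⟨a₀, ha₀⟩ := eventually_atTop.1 h4
  exact ⟨a₀, ha₀⟩

theorem one_le_L (a : ℕ) : 1 ≤ 1 + Real.log a := by
  have : 0 ≤ Real.log a := Real.log_natCast_nonneg a
  linarith

/-- **(T9E)** -/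
theorem twoLongPE_of (hE : CoreE) (hPL : PLH) (hF : FewH) : TwoLongPE := by
  intro C₀ c₀ hC₀ hc₀
  obtain ⟨C', c', hP⟩ := hPL
  obtain ⟨C1, hC1, hC1'⟩ : ∃ C1 : ℝ, 0 ≤ C1 ∧ C' ≤ C1 := ⟨|C'|, abs_nonneg _, le_abs_self _⟩
  obtain ⟨e, hee1, hee2⟩ : ∃ e : ℕ, c' ≤ e ∧ c₀ ≤ e :=
    ⟨c' + ⌈c₀⌉₊, Nat.le_add_right _ _, (Nat.le_ceil c₀).trans (by
      push_cast
      linarith [(Nat.cast_nonneg c' : (0 : ℝ) ≤ c')])⟩
  obtain ⟨Q0, hQ0⟩ : ∃ Q0, Q0 = 5 + C1 := ⟨_, rfl⟩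
  have hQ1 : 0 < Q0 := by rw [hQ0]; positivity
  obtain ⟨M0, hM0⟩ : ∃ M0, M0 = 8 * Q0 + 2 * Q0 ^ 2 * (C₀ + 1) + 1 := ⟨_, rfl⟩
  have hM1 : 0 < M0 := by rw [hM0]; positivity
  obtain ⟨a₀, ha₀⟩ := ev_log (24 * Q0 ^ 2 * (C₀ + 1)) (e * 3)
  obtain ⟨C, hC⟩ : ∃ C, C = 10 ^ 6 * (M0 ^ 2 * Q0 ^ 4) + C1 * a₀ + 1 := ⟨_, rfl⟩
  have hCpos : 0 < C := by rw [hC]; positivity
  refine ⟨C, ((e * 10 + 1 : ℕ) : ℝ), hCpos, by positivity, ?_⟩
  intro a b k lam _ hsum ha hlam ht h60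
  rw [Real.rpow_natCast] at ht
  have hL := one_le_L a
  obtain ⟨L, hLe⟩ : ∃ L, L = 1 + Real.log a := ⟨_, rfl⟩
  rw [← hLe] at hL hlam ht
  have hP1 := hP a b
  have ha1 := ha₀ a
  rw [← hLe] at hP1 ha1
  rw [pow_mul] at ha1
  obtain ⟨P, hPe⟩ : ∃ P, P = L ^ e := ⟨_, rfl⟩
  rw [← hPe] at ha1
  have hP0 : 1 ≤ P := by rw [hPe]; exact one_le_pow₀ hL
  have hLP : L ^ c' ≤ P := by rw [hPe]; exact pow_le_pow_right₀ hL hee1
  have hLP2 : L ^ c₀ ≤ P := by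
    rw [hPe, ← Real.rpow_natCast]
    exact Real.rpow_le_rpow_of_exponent_le hL hee2
  have hLP3 : P ^ 10 ≤ L ^ (e * 10 + 1) := by
    rw [hPe, ← pow_mul]
    exact pow_le_pow_right₀ hL (Nat.le_succ _)
  have haR : (1 : ℝ) ≤ a := by exact_mod_cast ha
  have hbR : (0 : ℝ) ≤ b := Nat.cast_nonneg b
  have ht0 : (0 : ℝ) ≤ dn2 lam := Nat.cast_nonneg _
  have ht1 : C * P ^ 10 * a ≤ dn2 lam := by
    refine le_trans ?_ ht
    gcongr
  have ht2 : 60 * (dn2 lam : ℝ) ≤ a * b := by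
    have h : lam 0 ≤ ∑ i, lam i := Finset.single_le_sum (fun _ _ => Nat.zero_le _)
      (Finset.mem_univ 0)
    have : 60 * dn2 lam ≤ a * b := by omega
    exact_mod_cast this
  have hP10 : P ≤ P ^ 10 := le_self_pow₀ hP0 (by norm_num)
  -- the polylog theorem
  by_cases hb : C1 * a * P ≤ b
  · refine hP1 ?_ _ _
    refine le_trans ?_ hb
    have : 0 ≤ L ^ c' := by positivity
    calc C' * a * L ^ c' ≤ C1 * a * L ^ c' := by gcongr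
      _ ≤ C1 * a * P := by gcongr
  push Not at hb
  -- small `a`
  have haa : a₀ < a := by
    by_contra hcon
    push Not at hcon
    have hcon' : (a : ℝ) ≤ a₀ := by exact_mod_cast hcon
    have h2 : 60 * (C * P ^ 10) ≤ b := by
      have h3 : (a : ℝ) * (60 * (C * P ^ 10)) ≤ a * b := by linarith
      exact le_of_mul_le_mul_left h3 (by linarith)
    have h3 : C1 * a * P ≤ C * P ^ 10 := by
      have h5 : C1 * a ≤ C := by
        have h6 : C1 * a ≤ C1 * a₀ := by gcongr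
        have h7 : 0 ≤ 10 ^ 6 * (M0 ^ 2 * Q0 ^ 4) := by positivity
        rw [hC]
        linarith
      gcongr
    have h9 : 0 ≤ C * P ^ 10 := by positivity
    linarith
  have hQa : 24 * Q0 ^ 2 * (C₀ + 1) * P ^ 3 ≤ a := ha1 haa.le
  have hP3 : 1 ≤ P ^ 3 := one_le_pow₀ hP0
  have ha2 : 2 ≤ a := by
    have h1 : (5 : ℝ) ≤ Q0 := by rw [hQ0]; linarith
    have h2 : (25 : ℝ) ≤ Q0 ^ 2 := by nlinarith
    have h3 : (1 : ℝ) ≤ C₀ + 1 := by linarith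
    have h4 : (25 : ℝ) * 1 * 1 ≤ Q0 ^ 2 * (C₀ + 1) * P ^ 3 := by gcongr
    have h5 : (2 : ℝ) ≤ a := by linarith
    exact_mod_cast h5
  by_cases hfew : dn2 lam + a ≤ b + 1
  · exact hF a b k lam ha2 hfew
  have ha3 : (0 : ℝ) < (a : ℝ) ^ 2 := by positivity
  have hpos : 0 < (lam 1 : ℝ) - 9 * dn2 lam := by
    by_contra hcon
    push Not at hcon
    have h1 : 0 ≤ C₀ * L ^ c₀ := by positivity
    have h2 := mul_nonpos_of_nonneg_of_nonpos h1 hcon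
    linarith
  refine driveE hE hsum ha (by omega) h60 (Q := Q0 * P) (R := 2 * (C₀ + 1) * P)
    ?_ ?_ ?_ ?_ ?_
  · have : (1 : ℝ) * 1 ≤ (C₀ + 1) * P := by
      have h3 : (1 : ℝ) ≤ C₀ + 1 := by linarith
      gcongr
    linarith
  · have h1 : 16 * (dn2 lam : ℝ) / (a : ℝ) ^ 2 ≤ C1 * P := by
      rw [div_le_iff₀ ha3]
      have h2 : (a : ℝ) * b ≤ a * (C1 * a * P) := by gcongr
      calc 16 * (dn2 lam : ℝ) ≤ a * b := by linarith
        _ ≤ a * (C1 * a * P) := h2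
        _ = C1 * P * (a : ℝ) ^ 2 := by ring
    rw [hQ0]
    linarith
  · have h1 : (a : ℝ) ^ 2 ≤ C₀ * P * ((lam 1 : ℝ) - 9 * dn2 lam) := by
      refine hlam.trans ?_
      gcongr
    have h2 : 0 ≤ P * ((lam 1 : ℝ) - 9 * dn2 lam) := by positivity
    linarith
  · calc 12 * (Q0 * P) ^ 2 * (2 * (C₀ + 1) * P) = 24 * Q0 ^ 2 * (C₀ + 1) * P ^ 3 := by ring
      _ ≤ (a : ℝ) := hQa
  · have h1 : 8 * (Q0 * P) + (Q0 * P) ^ 2 * (2 * (C₀ + 1) * P) + 1 ≤ M0 * P ^ 3 := by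
      have h2 : P ≤ P ^ 3 := le_self_pow₀ hP0 (by norm_num)
      have h5 : 8 * Q0 * P ≤ 8 * Q0 * P ^ 3 := by gcongr
      rw [hM0]
      calc 8 * (Q0 * P) + (Q0 * P) ^ 2 * (2 * (C₀ + 1) * P) + 1
          = 8 * Q0 * P + 2 * Q0 ^ 2 * (C₀ + 1) * P ^ 3 + 1 := by ring
        _ ≤ 8 * Q0 * P ^ 3 + 2 * Q0 ^ 2 * (C₀ + 1) * P ^ 3 + P ^ 3 := by linarith
        _ = (8 * Q0 + 2 * Q0 ^ 2 * (C₀ + 1) + 1) * P ^ 3 := by ring
    have h6 : 10 ^ 6 * (M0 ^ 2 * Q0 ^ 4) ≤ C := by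
      rw [hC]
      have : 0 ≤ C1 * a₀ := by positivity
      linarith
    calc 10 ^ 6 * ((8 * (Q0 * P) + (Q0 * P) ^ 2 * (2 * (C₀ + 1) * P) + 1) *
          (Q0 * P) ^ 2) ^ 2 * a
        ≤ 10 ^ 6 * ((M0 * P ^ 3) * (Q0 * P) ^ 2) ^ 2 * a := by gcongr
      _ = 10 ^ 6 * (M0 ^ 2 * Q0 ^ 4) * P ^ 10 * a := by ring
      _ ≤ C * P ^ 10 * a := by gcongr
      _ ≤ dn2 lam := ht1

end Vale.Agent.P181.TL.H410
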