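import Vale.Agent.P181.TL.DefsP
import Vale.Agent.P181.TL.H410.T9E

set_option autoImplicit false

/-!
# P181, TL+: block T9+: the polylogarithmic window with an arbitrary tail, from `CoreP`

Inputs: the polylog theorem (`PLH`) and few boxes below row two (`FewH`).
-/

namespace Vale.Agent.P181.TL.H410

open Filter
open Vale.Agent.P181.TL
open Vale.Agent.P181.H280 (plethMult)

/-- The choice of `X`. -/
theorem pickX {a b t D : ℕ} (ha : 0 < a) (hbt : b ≤ t + a) (hD : 96 * D ^ 2 ≤ t / a)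
    (hD1 : 1 ≤ D) :
    ∃ X : ℕ, 1 ≤ X ∧ 2 * D * X ≤ t / a ∧ 9 * (a + b) * (a + t) ≤ a ^ 2 * X ^ 4 ∧
      X ^ 2 * a ≤ 24 * t := by
  obtain ⟨s, hs⟩ : ∃ s, s = t / a := ⟨_, rfl⟩
  rw [← hs] at hD ⊢
  have hsa : s * a ≤ t := by rw [hs]; exact Nat.div_mul_le_self t a
  have hta : t < (s + 1) * a := by
    rw [hs, add_mul, one_mul, mul_comm]
    have := Nat.lt_mul_div_succ t ha
    rw [mul_add, mul_one] at this
    exact this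
  have hs3 : 96 ≤ s := by nlinarith
  obtain ⟨y, hy⟩ : ∃ y, y = Nat.sqrt (3 * (s + 3)) := ⟨_, rfl⟩
  have hy1 : y * y ≤ 3 * (s + 3) := by rw [hy]; exact Nat.sqrt_le _
  have hy2 : 3 * (s + 3) < (y + 1) * (y + 1) := by rw [hy]; exact Nat.lt_succ_sqrt _
  have hy3 : 1 ≤ y := by
    by_contra hc
    have : y = 0 := by omega
    subst this
    omega
  have hX : (y + 1) ^ 2 ≤ 24 * s := by nlinarith
  refine ⟨y + 1, by omega, ?_, ?_, ?_⟩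
  · have h1 : (2 * D * (y + 1)) ^ 2 ≤ s ^ 2 := by
      calc (2 * D * (y + 1)) ^ 2 = 4 * D ^ 2 * (y + 1) ^ 2 := by ring
        _ ≤ 4 * D ^ 2 * (24 * s) := Nat.mul_le_mul_left _ hX
        _ = (96 * D ^ 2) * s := by ring
        _ ≤ s * s := Nat.mul_le_mul_right _ hD
        _ = s ^ 2 := by ring
    exact (Nat.pow_le_pow_iff_left (by norm_num)).1 h1
  · have h1 : t + 2 * a ≤ a * (s + 3) := by nlinarith
    have h2 : a + b ≤ a * (s + 3) := by omega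
    have h3 : a + t ≤ a * (s + 3) := by omega
    calc 9 * (a + b) * (a + t) ≤ 9 * (a * (s + 3)) * (a * (s + 3)) := by gcongr
      _ = a ^ 2 * (3 * (s + 3)) ^ 2 := by ring
      _ ≤ a ^ 2 * ((y + 1) * (y + 1)) ^ 2 := by gcongr
      _ = a ^ 2 * (y + 1) ^ 4 := by ring
  · calc (y + 1) ^ 2 * a ≤ 24 * s * a := Nat.mul_le_mul_right _ hX
      _ = 24 * (s * a) := by ring
      _ ≤ 24 * t := Nat.mul_le_mul_left _ hsa

/-- The common driver: `Q` bounds `q`, `R` bounds `4 a ^ 2 / (λ_2 - λ_3)`. -/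
theorem driveP (hC : CoreP) {a b k : ℕ} {lam : Fin (k + 3) → ℕ}
    (hsum : ∑ i, lam i = a * b) (ha : 0 < a) (hbt : b ≤ dn2 lam + a)
    (h60 : lam 1 + 60 * dn2 lam + 17 * a ^ 2 ≤ lam 0) {Q R : ℝ} (hR : 2 ≤ R)
    (h1 : 5 + 16 * (dn2 lam : ℝ) / (a : ℝ) ^ 2 ≤ Q)
    (h2 : 4 * (a : ℝ) ^ 2 ≤ R * ((lam 1 : ℝ) - lam 2)) (h3 : 12 * Q ^ 2 * R ≤ a)
    (h4 : 96 * ((8 * Q + Q ^ 2 * R + 1) * Q ^ 2 * R) ^ 2 * dn2 lam ≤ (a : ℝ) ^ 3)
    (h5 : 10 ^ 6 * ((8 * Q + Q ^ 2 * R + 1) * Q ^ 2) ^ 2 * a ≤ dn2 lam) :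
    plethMult a b (k + 3) lam ≤ plethMult b a (k + 3) lam := by
  obtain ⟨q, hq⟩ : ∃ q, q = 5 + 16 * dn2 lam / a ^ 2 := ⟨_, rfl⟩
  have hqQ : (q : ℝ) ≤ Q := by
    refine le_trans ?_ h1
    rw [hq, Nat.cast_add]
    have := @Nat.cast_div_le ℝ _ _ _ (16 * dn2 lam) (a ^ 2)
    push_cast at this ⊢
    linarith
  have hq5 : 5 ≤ q := by rw [hq]; exact Nat.le_add_right _ _
  have hqa : q * a ^ 2 ≤ 5 * a ^ 2 + 16 * dn2 lam := by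
    rw [hq, add_mul]
    have := Nat.div_mul_le_self (16 * dn2 lam) (a ^ 2)
    omega
  have hq0 : (5 : ℝ) ≤ q := by exact_mod_cast hq5
  have hQ5 : (5 : ℝ) ≤ Q := hq0.trans hqQ
  have hq2 : (q : ℝ) ^ 2 ≤ Q ^ 2 := pow_le_pow_left₀ (by linarith) hqQ 2
  have hQR : 0 ≤ Q ^ 2 * R := by positivity
  obtain ⟨m, hm⟩ : ∃ m, m = 8 * q + ⌈Q ^ 2 * R⌉₊ := ⟨_, rfl⟩
  have hm1 : Q ^ 2 * R ≤ m := by
    rw [hm]
    push_cast
    have := Nat.le_ceil (Q ^ 2 * R)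
    linarith
  have hm2 : (m : ℝ) ≤ 8 * Q + Q ^ 2 * R + 1 := by
    rw [hm]
    push_cast
    have := (Nat.ceil_lt_add_one hQR).le
    linarith
  have hm0 : 0 < m := by omega
  have hmR : (0 : ℝ) < m := by exact_mod_cast hm0
  have ha0 : (0 : ℝ) < a := by exact_mod_cast ha
  have hR0 : 0 < R := by linarith
  have ht0 : (0 : ℝ) ≤ dn2 lam := Nat.cast_nonneg _
  have h24 : 24 * Q ^ 2 ≤ a := by
    refine le_trans ?_ h3
    nlinarith [sq_nonneg Q]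
  have h120 : 120 * Q ≤ a := by
    refine le_trans ?_ h24
    nlinarith
  -- `D = m q²`
  obtain ⟨D, hD⟩ : ∃ D, D = m * q ^ 2 := ⟨_, rfl⟩
  obtain ⟨T, hT⟩ : ∃ T, T = (8 * Q + Q ^ 2 * R + 1) * Q ^ 2 := ⟨_, rfl⟩
  rw [← hT] at h4 h5
  have hDT : (D : ℝ) ≤ T := by
    rw [hD, hT]
    push_cast
    exact mul_le_mul hm2 hq2 (by positivity) (by positivity)
  have hD0 : (0 : ℝ) ≤ D := Nat.cast_nonneg _
  have hD1 : 1 ≤ D := by
    rw [hD]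
    exact Nat.succ_le_of_lt (by positivity)
  have hDs : 96 * D ^ 2 ≤ dn2 lam / a := by
    rw [Nat.le_div_iff_mul_le ha]
    have : ((96 * D ^ 2 * a : ℕ) : ℝ) ≤ ((dn2 lam : ℕ) : ℝ) := by
      push_cast
      refine le_trans ?_ h5
      have h6 : (D : ℝ) ^ 2 ≤ T ^ 2 := pow_le_pow_left₀ hD0 hDT 2
      have h7 : (D : ℝ) ^ 2 * a ≤ T ^ 2 * a := by gcongr
      have h8 : 0 ≤ T ^ 2 * a := by positivity
      linarith
    exact_mod_cast this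
  obtain ⟨X, hX1, hX2, hX3, hX4⟩ := pickX ha hbt hDs hD1
  -- the sizes
  obtain ⟨x, hx⟩ : ∃ x, x = q ^ 2 * a * (a / m) := ⟨_, rfl⟩
  have hxR : R * (x : ℝ) ≤ (a : ℝ) ^ 2 := by
    have hdiv : ((a / m : ℕ) : ℝ) ≤ (a : ℝ) / m := Nat.cast_div_le
    have h6 : (x : ℝ) ≤ (q : ℝ) ^ 2 * a * (a / m) := by
      rw [hx]
      push_cast
      gcongr
    have h7 : R * (x : ℝ) * m ≤ (a : ℝ) ^ 2 * m := by
      calc R * (x : ℝ) * m ≤ R * ((q : ℝ) ^ 2 * a * (a / m)) * m := by gcongr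
        _ = R * (q : ℝ) ^ 2 * (a : ℝ) ^ 2 := by field_simp
        _ ≤ R * Q ^ 2 * (a : ℝ) ^ 2 := by gcongr
        _ = (Q ^ 2 * R) * (a : ℝ) ^ 2 := by ring
        _ ≤ m * (a : ℝ) ^ 2 := by gcongr
        _ = (a : ℝ) ^ 2 * m := by ring
    exact le_of_mul_le_mul_right h7 hmR
  -- `y = 2 D X a`
  obtain ⟨y, hy⟩ : ∃ y, y = 2 * D * X * a := ⟨_, rfl⟩
  have hyR : R * (y : ℝ) ≤ (a : ℝ) ^ 2 := by
    have hX4' : (X : ℝ) ^ 2 * a ≤ 24 * dn2 lam := by exact_mod_cast hX4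
    have h6 : (R * (y : ℝ)) ^ 2 ≤ ((a : ℝ) ^ 2) ^ 2 := by
      calc (R * (y : ℝ)) ^ 2 = 4 * (D * R) ^ 2 * ((X : ℝ) ^ 2 * a) * a := by
            rw [hy]
            push_cast
            ring
        _ ≤ 4 * (T * R) ^ 2 * (24 * dn2 lam) * a := by gcongr
        _ = 96 * (T * R) ^ 2 * dn2 lam * a := by ring
        _ ≤ (a : ℝ) ^ 3 * a := by gcongr
        _ = ((a : ℝ) ^ 2) ^ 2 := by ring
    exact (pow_le_pow_iff_left₀ (by positivity) (by positivity) (by norm_num)).1 h6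
  have hx0 : (0 : ℝ) ≤ x := Nat.cast_nonneg x
  have hy0 : (0 : ℝ) ≤ y := Nat.cast_nonneg y
  have h6q : 12 * (q : ℝ) ^ 2 * R ≤ a := by
    refine le_trans ?_ h3
    gcongr
  -- everything together
  obtain ⟨z, hz⟩ : ∃ z, z = 2 * q ^ 2 * a + y + x + 2 * a := ⟨_, rfl⟩
  have hzR : R * (z : ℝ) ≤ 3 * (a : ℝ) ^ 2 := by
    have h8 : R * (2 * (q : ℝ) ^ 2 * a + 2 * a) ≤ (a : ℝ) ^ 2 := by
      have h9 : (2 : ℝ) ≤ (q : ℝ) ^ 2 := by nlinarith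
      calc R * (2 * (q : ℝ) ^ 2 * a + 2 * a) ≤ R * (2 * (q : ℝ) ^ 2 * a + (q : ℝ) ^ 2 * a) := by
            gcongr
        _ = 3 * (q : ℝ) ^ 2 * R * a := by ring
        _ ≤ 12 * (q : ℝ) ^ 2 * R * a := by
            have : 0 ≤ (q : ℝ) ^ 2 * R * a := by positivity
            linarith
        _ ≤ (a : ℝ) * a := by gcongr
        _ = (a : ℝ) ^ 2 := by ring
    rw [hz]
    push_cast
    linarith
  have hz0 : (0 : ℝ) ≤ z := Nat.cast_nonneg z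
  have hz2 : 2 * z ≤ 3 * a ^ 2 := by
    have : 2 * (z : ℝ) ≤ 3 * (a : ℝ) ^ 2 := by
      refine le_trans ?_ hzR
      gcongr
    exact_mod_cast this
  have hz1 : lam 2 + z ≤ lam 1 := by
    have h8 : R * (z : ℝ) ≤ R * ((lam 1 : ℝ) - lam 2) := by
      refine hzR.trans (le_trans ?_ h2)
      have : 0 ≤ (a : ℝ) ^ 2 := by positivity
      linarith
    have h10 := le_of_mul_le_mul_left h8 hR0
    have : ((lam 2 + z : ℕ) : ℝ) ≤ ((lam 1 : ℕ) : ℝ) := by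
      push_cast
      linarith
    exact_mod_cast this
  have hlam2 : lam 2 ≤ dn2 lam := by
    have h : lam ((0 : Fin (k + 1)).succ.succ) ≤ ∑ i : Fin (k + 1), lam i.succ.succ :=
      Finset.single_le_sum (f := fun i : Fin (k + 1) => lam i.succ.succ)
        (fun _ _ => Nat.zero_le _) (Finset.mem_univ 0)
    exact h
  have ha10 : 10 ≤ a := by
    have : (10 : ℝ) ≤ a := by linarith
    exact_mod_cast this
  have haa : 10 * a ≤ a ^ 2 := by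
    calc 10 * a ≤ a * a := Nat.mul_le_mul_right _ ha10
      _ = a ^ 2 := by ring
  have hL : lam 2 + z =
      lam 2 + 2 * q ^ 2 * a + 2 * m * q ^ 2 * X * a + q ^ 2 * a * (a / m) + 2 * a := by
    rw [hz, hy, hx, hD]
    ring
  refine hC a b k q m X (lam 2 + z) lam hsum (by omega) hq (by omega) ?_ hX1 ?_ hX3 hL hz1 ?_
  · have : ((40 * q : ℕ) : ℝ) ≤ (a : ℝ) := by
      push_cast
      linarith
    exact_mod_cast this
  · rw [Nat.le_div_iff_mul_le (by omega)]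
    calc 2 * m * q * X * q = 2 * D * X := by rw [hD]; ring
      _ ≤ dn2 lam / a := hX2
  · have h14 : 3 * q * a ^ 2 = 3 * (q * a ^ 2) := by ring
    rw [h14]
    omega

/-- **(T9+)** -/
theorem twoLongPA_of (hE : CoreP) (hPL : PLH) (hF : FewH) : TwoLongPA := by
  intro C₀ c₀ hC₀ hc₀
  obtain ⟨C', c', hP⟩ := hPL
  obtain ⟨C1, hC1, hC1'⟩ : ∃ C1 : ℝ, 0 ≤ C1 ∧ C' ≤ C1 := ⟨|C'|, abs_nonneg _, le_abs_self _⟩
  obtain ⟨e, hee1, hee2⟩ : ∃ e : ℕ, c' ≤ e ∧ c₀ ≤ e :=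
    ⟨c' + ⌈c₀⌉₊, Nat.le_add_right _ _, (Nat.le_ceil c₀).trans (by
      push_cast
      linarith [(Nat.cast_nonneg c' : (0 : ℝ) ≤ c')])⟩
  obtain ⟨Q0, hQ0⟩ : ∃ Q0, Q0 = 5 + C1 := ⟨_, rfl⟩
  have hQ1 : 0 < Q0 := by rw [hQ0]; positivity
  obtain ⟨M0, hM0⟩ : ∃ M0, M0 = 8 * Q0 + 4 * Q0 ^ 2 * (C₀ + 1) + 1 := ⟨_, rfl⟩
  have hM1 : 0 < M0 := by rw [hM0]; positivity
  obtain ⟨K0, hK0⟩ : ∃ K0, K0 = 1536 * (M0 ^ 2 * Q0 ^ 4 * (C₀ + 1) ^ 2) * C1 +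
    48 * Q0 ^ 2 * (C₀ + 1) := ⟨_, rfl⟩
  obtain ⟨a₀, ha₀⟩ := ev_log K0 (e * 13)
  obtain ⟨C, hC⟩ : ∃ C, C = 10 ^ 6 * (M0 ^ 2 * Q0 ^ 4) + C1 * a₀ + 1 := ⟨_, rfl⟩
  have hCpos : 0 < C := by rw [hC]; positivity
  refine ⟨C, ((e * 10 + 1 : ℕ) : ℝ), hCpos, by positivity, ?_⟩
  intro a b k lam _ hsum ha hlam ht h60
  rw [Real.rpow_natCast] at ht
  have hL := one_le_L a
  obtain ⟨L, hLe⟩ : ∃ L, L = 1 + Real.log a := ⟨_, rfl⟩
  rw [← hLe] at hL hlam ht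
  have hP1 := hP a b
  have ha1 := ha₀ a
  rw [← hLe] at hP1 ha1
  rw [pow_mul] at ha1
  obtain ⟨P, hPe⟩ : ∃ P, P = L ^ e := ⟨_, rfl⟩
  rw [← hPe] at ha1
  have hP0 : 1 ≤ P := by rw [hPe]; exact one_le_pow₀ hL
  have hLP : L ^ c' ≤ P := by rw [hPe]; exact pow_le_pow_right₀ hL hee1
  have hLP2 : L ^ c₀ ≤ P := by
    rw [hPe, ← Real.rpow_natCast]
    exact Real.rpow_le_rpow_of_exponent_le hL hee2
  have hLP3 : P ^ 10 ≤ L ^ (e * 10 + 1) := by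
    rw [hPe, ← pow_mul]
    exact pow_le_pow_right₀ hL (Nat.le_succ _)
  have haR : (1 : ℝ) ≤ a := by exact_mod_cast ha
  have hbR : (0 : ℝ) ≤ b := Nat.cast_nonneg b
  have ht0 : (0 : ℝ) ≤ dn2 lam := Nat.cast_nonneg _
  have ht1 : C * P ^ 10 * a ≤ dn2 lam := by
    refine le_trans ?_ ht
    gcongr
  have ht2 : 60 * (dn2 lam : ℝ) ≤ a * b := by
    have h : lam 0 ≤ ∑ i, lam i := Finset.single_le_sum (fun _ _ => Nat.zero_le _)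
      (Finset.mem_univ 0)
    have : 60 * dn2 lam ≤ a * b := by omega
    exact_mod_cast this
  have hP10 : P ≤ P ^ 10 := le_self_pow₀ hP0 (by norm_num)
  -- the polylog theorem
  by_cases hb : C1 * a * P ≤ b
  · refine hP1 ?_ _ _
    refine le_trans ?_ hb
    have : 0 ≤ L ^ c' := by positivity
    calc C' * a * L ^ c' ≤ C1 * a * L ^ c' := by gcongr
      _ ≤ C1 * a * P := by gcongr
  push Not at hb
  -- small `a`
  have haa : a₀ < a := by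
    by_contra hcon
    push Not at hcon
    have hcon' : (a : ℝ) ≤ a₀ := by exact_mod_cast hcon
    have h2 : 60 * (C * P ^ 10) ≤ b := by
      have h3 : (a : ℝ) * (60 * (C * P ^ 10)) ≤ a * b := by linarith
      exact le_of_mul_le_mul_left h3 (by linarith)
    have h3 : C1 * a * P ≤ C * P ^ 10 := by
      have h5 : C1 * a ≤ C := by
        have h6 : C1 * a ≤ C1 * a₀ := by gcongr
        have h7 : 0 ≤ 10 ^ 6 * (M0 ^ 2 * Q0 ^ 4) := by positivity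
        rw [hC]
        linarith
      gcongr
    have h9 : 0 ≤ C * P ^ 10 := by positivity
    linarith
  have hQa : K0 * P ^ 13 ≤ a := ha1 haa.le
  have hQa1 : 48 * Q0 ^ 2 * (C₀ + 1) * P ^ 13 ≤ a := by
    refine le_trans ?_ hQa
    rw [hK0]
    have : 0 ≤ 1536 * (M0 ^ 2 * Q0 ^ 4 * (C₀ + 1) ^ 2) * C1 * P ^ 13 := by positivity
    linarith
  have hQa2 : 1536 * (M0 ^ 2 * Q0 ^ 4 * (C₀ + 1) ^ 2) * C1 * P ^ 13 ≤ a := by
    refine le_trans ?_ hQa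
    rw [hK0]
    have : 0 ≤ 48 * Q0 ^ 2 * (C₀ + 1) * P ^ 13 := by positivity
    linarith
  have hP3 : P ^ 3 ≤ P ^ 13 := pow_le_pow_right₀ hP0 (by norm_num)
  have hP13 : 1 ≤ P ^ 13 := one_le_pow₀ hP0
  have ha2 : 2 ≤ a := by
    have h1 : (5 : ℝ) ≤ Q0 := by rw [hQ0]; linarith
    have h2 : (25 : ℝ) ≤ Q0 ^ 2 := by nlinarith
    have h3 : (1 : ℝ) ≤ C₀ + 1 := by linarith
    have h4 : (25 : ℝ) * 1 * 1 ≤ Q0 ^ 2 * (C₀ + 1) * P ^ 13 := by gcongr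
    have h5 : (2 : ℝ) ≤ a := by linarith
    exact_mod_cast h5
  by_cases hfew : dn2 lam + a ≤ b + 1
  · exact hF a b (k + 1) lam ha2 hfew
  have ha3 : (0 : ℝ) < (a : ℝ) ^ 2 := by positivity
  have hpos : 0 < (lam 1 : ℝ) - lam 2 := by
    by_contra hcon
    push Not at hcon
    have h1 : 0 ≤ C₀ * L ^ c₀ := by positivity
    have h2 := mul_nonpos_of_nonneg_of_nonpos h1 hcon
    linarith
  have ht3 : (dn2 lam : ℝ) ≤ C1 * P * (a : ℝ) ^ 2 := by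
    have h2 : (a : ℝ) * b ≤ a * (C1 * a * P) := by gcongr
    calc (dn2 lam : ℝ) ≤ a * b := by linarith
      _ ≤ a * (C1 * a * P) := h2
      _ = C1 * P * (a : ℝ) ^ 2 := by ring
  have hS : 8 * (Q0 * P) + (Q0 * P) ^ 2 * (4 * (C₀ + 1) * P) + 1 ≤ M0 * P ^ 3 := by
    have h2 : P ≤ P ^ 3 := le_self_pow₀ hP0 (by norm_num)
    have h3 : 1 ≤ P ^ 3 := one_le_pow₀ hP0
    have h5 : 8 * Q0 * P ≤ 8 * Q0 * P ^ 3 := by gcongr
    rw [hM0]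
    calc 8 * (Q0 * P) + (Q0 * P) ^ 2 * (4 * (C₀ + 1) * P) + 1
        = 8 * Q0 * P + 4 * Q0 ^ 2 * (C₀ + 1) * P ^ 3 + 1 := by ring
      _ ≤ 8 * Q0 * P ^ 3 + 4 * Q0 ^ 2 * (C₀ + 1) * P ^ 3 + P ^ 3 := by linarith
      _ = (8 * Q0 + 4 * Q0 ^ 2 * (C₀ + 1) + 1) * P ^ 3 := by ring
  have hS0 : 0 ≤ 8 * (Q0 * P) + (Q0 * P) ^ 2 * (4 * (C₀ + 1) * P) + 1 := by positivity
  refine driveP hE hsum ha (by omega) h60 (Q := Q0 * P) (R := 4 * (C₀ + 1) * P)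
    ?_ ?_ ?_ ?_ ?_ ?_
  · have : (1 : ℝ) * 1 ≤ (C₀ + 1) * P := by
      have h3 : (1 : ℝ) ≤ C₀ + 1 := by linarith
      gcongr
    linarith
  · have h1 : 16 * (dn2 lam : ℝ) / (a : ℝ) ^ 2 ≤ C1 * P := by
      rw [div_le_iff₀ ha3]
      have h2 : (a : ℝ) * b ≤ a * (C1 * a * P) := by gcongr
      calc 16 * (dn2 lam : ℝ) ≤ a * b := by linarith
        _ ≤ a * (C1 * a * P) := h2
        _ = C1 * P * (a : ℝ) ^ 2 := by ring
    rw [hQ0]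
    linarith
  · have h1 : (a : ℝ) ^ 2 ≤ C₀ * P * ((lam 1 : ℝ) - lam 2) := by
      refine hlam.trans ?_
      gcongr
    have h2 : 0 ≤ P * ((lam 1 : ℝ) - lam 2) := by positivity
    linarith
  · calc 12 * (Q0 * P) ^ 2 * (4 * (C₀ + 1) * P) = 48 * Q0 ^ 2 * (C₀ + 1) * P ^ 3 := by ring
      _ ≤ 48 * Q0 ^ 2 * (C₀ + 1) * P ^ 13 := by gcongr
      _ ≤ (a : ℝ) := hQa1
  · calc 96 * ((8 * (Q0 * P) + (Q0 * P) ^ 2 * (4 * (C₀ + 1) * P) + 1) * (Q0 * P) ^ 2 *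
          (4 * (C₀ + 1) * P)) ^ 2 * dn2 lam
        ≤ 96 * ((M0 * P ^ 3) * (Q0 * P) ^ 2 * (4 * (C₀ + 1) * P)) ^ 2 *
          (C1 * P * (a : ℝ) ^ 2) := by gcongr
      _ = (1536 * (M0 ^ 2 * Q0 ^ 4 * (C₀ + 1) ^ 2) * C1 * P ^ 13) * (a : ℝ) ^ 2 := by ring
      _ ≤ (a : ℝ) * (a : ℝ) ^ 2 := by gcongr
      _ = (a : ℝ) ^ 3 := by ring
  · have h6 : 10 ^ 6 * (M0 ^ 2 * Q0 ^ 4) ≤ C := by
      rw [hC]
      have : 0 ≤ C1 * a₀ := by positivity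
      linarith
    calc 10 ^ 6 * ((8 * (Q0 * P) + (Q0 * P) ^ 2 * (4 * (C₀ + 1) * P) + 1) *
          (Q0 * P) ^ 2) ^ 2 * a
        ≤ 10 ^ 6 * ((M0 * P ^ 3) * (Q0 * P) ^ 2) ^ 2 * a := by gcongr
      _ = 10 ^ 6 * (M0 ^ 2 * Q0 ^ 4) * P ^ 10 * a := by ring
      _ ≤ C * P ^ 10 * a := by gcongr
      _ ≤ dn2 lam := ht1

end Vale.Agent.P181.TL.H410
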